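import Vale.Agent.P120.Riesz

/-!
A scale-averaged limit of the averages of truncated Riesz transforms over the pieces.
-/

open MeasureTheory Filter Topology Set Metric
open scoped RealInnerProductSpace

namespace Vale.Agent.P120

noncomputable section

variable {E : Type*} [NormedAddCommGroup E] [InnerProductSpace ℝ E] [MeasurableSpace E]
  [BorelSpace E] [FiniteDimensional ℝ E]
  {ι : Type*} [Fintype ι] [DecidableEq ι] (Φ : Sys E ι)

omit [InnerProductSpace ℝ E] [MeasurableSpace E] [BorelSpace E] [FiniteDimensional ℝ E] in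
lemma norm_sq_integral_le [NormedSpace ℝ E] {X : Type*} [MeasurableSpace X] {ν : Measure X}
    [IsFiniteMeasure ν] {f : X → E} (hf : Integrable f ν) (hf2 : Integrable (fun x => ‖f x‖ ^ 2) ν) :
    ‖∫ x, f x ∂ν‖ ^ 2 ≤ ν.real univ * ∫ x, ‖f x‖ ^ 2 ∂ν := by
  rcases eq_or_ne (ν.real univ) 0 with h0 | h0
  · have : ν = 0 := Measure.measure_univ_eq_zero.1 ((measureReal_eq_zero_iff).1 h0)
    simp [this]
  have hpos : 0 < ν.real univ := lt_of_le_of_ne measureReal_nonneg (Ne.symm h0)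
  set c := (∫ x, ‖f x‖ ∂ν) / ν.real univ with hc
  have hv : 0 ≤ ∫ x, (‖f x‖ - c) ^ 2 ∂ν := integral_nonneg fun x => sq_nonneg _
  have h1 : ∫ x, (‖f x‖ - c) ^ 2 ∂ν =
      (∫ x, ‖f x‖ ^ 2 ∂ν) - 2 * c * (∫ x, ‖f x‖ ∂ν) + c ^ 2 * ν.real univ := by
    have : (fun x => (‖f x‖ - c) ^ 2) = fun x => ‖f x‖ ^ 2 - 2 * c * ‖f x‖ + c ^ 2 := by
      funext x; ring
    rw [this, integral_add (f := fun x => ‖f x‖ ^ 2 - 2 * c * ‖f x‖)
      (hf2.sub (hf.norm.const_mul _)) (integrable_const _),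
      integral_sub hf2 (hf.norm.const_mul _), integral_const_mul, integral_const]
    simp [mul_comm]
  have h2 : (∫ x, ‖f x‖ ∂ν) = c * ν.real univ := by rw [hc, div_mul_cancel₀ _ h0]
  have h3 : ‖∫ x, f x ∂ν‖ ^ 2 ≤ (∫ x, ‖f x‖ ∂ν) ^ 2 :=
    pow_le_pow_left₀ (norm_nonneg _) (norm_integral_le_integral_norm _) 2
  rw [h1, h2] at hv
  rw [h2] at h3
  nlinarith

namespace Sys

/-- Weighted sum over words of length `m`. -/
def lev {V : Type*} [AddCommMonoid V] [Module ℝ V] : ℕ → (List ι → V) → V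
  | 0, F => F []
  | m + 1, F => ∑ i, Φ.p i • lev m (fun v => F (i :: v))

omit [DecidableEq ι] [BorelSpace E] [FiniteDimensional ℝ E] in
lemma lev_succ' {V : Type*} [AddCommMonoid V] [Module ℝ V] : ∀ (m : ℕ) (F : List ι → V),
    Φ.lev (m + 1) F = Φ.lev m (fun v => ∑ i, Φ.p i • F (v ++ [i]))
  | 0, F => by simp [lev]
  | m + 1, F => by
    conv_lhs => rw [lev]
    conv_rhs => rw [lev]
    refine Finset.sum_congr rfl fun i _ => ?_
    rw [lev_succ' m]
    rfl

omit [DecidableEq ι] [BorelSpace E] [FiniteDimensional ℝ E] in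
lemma lev_mono : ∀ (m : ℕ) {F G : List ι → ℝ}, (∀ v, F v ≤ G v) → Φ.lev m F ≤ Φ.lev m G
  | 0, _, _, h => h []
  | m + 1, _, _, h => Finset.sum_le_sum fun i _ =>
      mul_le_mul_of_nonneg_left (lev_mono m fun v => h _) (Φ.p_pos i).le

omit [DecidableEq ι] [BorelSpace E] [FiniteDimensional ℝ E] in
lemma lev_add {V : Type*} [AddCommMonoid V] [Module ℝ V] : ∀ (m : ℕ) (F G : List ι → V),
    Φ.lev m (fun v => F v + G v) = Φ.lev m F + Φ.lev m G
  | 0, _, _ => rfl
  | m + 1, F, G => by simp [lev, lev_add m, Finset.sum_add_distrib]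

omit [DecidableEq ι] [BorelSpace E] [FiniteDimensional ℝ E] in
lemma lev_smul {V : Type*} [AddCommMonoid V] [Module ℝ V] : ∀ (m : ℕ) (c : ℝ) (F : List ι → V),
    Φ.lev m (fun v => c • F v) = c • Φ.lev m F
  | 0, _, _ => rfl
  | m + 1, c, F => by simp [lev, lev_smul m, Finset.smul_sum, smul_comm c]

omit [DecidableEq ι] [BorelSpace E] [FiniteDimensional ℝ E] in
lemma lev_const : ∀ (m : ℕ) (c : ℝ), Φ.lev m (fun _ => c) = c
  | 0, _ => rfl
  | m + 1, c => by simp [lev, lev_const m, ← Finset.sum_mul, Φ.sum_p]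

omit [DecidableEq ι] [BorelSpace E] [FiniteDimensional ℝ E] in
lemma lev_tendsto {α : Type*} {l : Filter α} : ∀ (m : ℕ) {F : α → List ι → ℝ} {G : List ι → ℝ},
    (∀ v, Tendsto (fun a => F a v) l (𝓝 (G v))) →
      Tendsto (fun a => Φ.lev m (F a)) l (𝓝 (Φ.lev m G))
  | 0, _, _, h => h []
  | m + 1, _, _, h => tendsto_finsetSum _ fun i _ =>
      (lev_tendsto m fun v => h _).const_smul (Φ.p i)

omit [DecidableEq ι] [BorelSpace E] [FiniteDimensional ℝ E] in
lemma lev_integrable {X : Type*} [MeasurableSpace X] {ν : Measure X} :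
    ∀ (m : ℕ) {F : X → List ι → ℝ}, (∀ v, Integrable (fun x => F x v) ν) →
      Integrable (fun x => Φ.lev m (F x)) ν ∧
      ∫ x, Φ.lev m (F x) ∂ν = Φ.lev m (fun v => ∫ x, F x v ∂ν)
  | 0, _, h => ⟨h [], rfl⟩
  | m + 1, F, h => by
    have ih := fun i => lev_integrable (ν := ν) m (F := fun x v => F x (i :: v)) fun v => h _
    refine ⟨integrable_finsetSum _ fun i _ => (ih i).1.smul (Φ.p i), ?_⟩
    simp only [lev]
    rw [integral_finsetSum _ fun i _ => (ih i).1.fun_smul (Φ.p i)]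
    exact Finset.sum_congr rfl fun i _ => by rw [integral_smul, (ih i).2]

/-- The average of `R` at scale `exp (-u)` over a piece. -/
def A (u : ℝ) (w : List ι) : E := Φ.avg w (Φ.R (Real.exp (-u)))

/-- The scale average of `A` over `[0, n+1]`. -/
def B (n : ℕ) (w : List ι) : E := ((n:ℝ) + 1)⁻¹ • ∫ u in (0:ℝ)..((n:ℝ) + 1), Φ.A u w

omit [DecidableEq ι] in
lemma stronglyMeasurable_A (w : List ι) : StronglyMeasurable fun u => Φ.A u w := by
  refine StronglyMeasurable.integral_prod_right'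
    (f := fun q : ℝ × E => Φ.R (Real.exp (-q.1)) (Φ.Sv w q.2)) ?_
  exact Φ.stronglyMeasurable_R2.comp_measurable
    ((by fun_prop : Measurable fun q : ℝ × E => Real.exp (-q.1)).prodMk
      ((Φ.continuous_Sv w).measurable.comp measurable_snd))

omit [DecidableEq ι] in
lemma A_split (u : ℝ) (w : List ι) : Φ.A u w = ∑ i, Φ.p i • Φ.A u (w ++ [i]) :=
  Φ.avg_split (Φ.stronglyMeasurable_R _) (fun x _ => Φ.norm_R_le (Real.exp_pos _) x) w

variable {C : ℝ} (hC : ∀ ε, 0 < ε → ∫ x, ‖Φ.R ε x‖ ^ 2 ∂Φ.μ ≤ C)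

omit [DecidableEq ι] in
lemma norm_sq_A_le_avg (u : ℝ) (w : List ι) :
    ‖Φ.A u w‖ ^ 2 ≤ Φ.avg w (fun x => ‖Φ.R (Real.exp (-u)) x‖ ^ 2) := by
  have hm : StronglyMeasurable fun x => Φ.R (Real.exp (-u)) (Φ.Sv w x) :=
    (Φ.stronglyMeasurable_R _).comp_measurable (Φ.continuous_Sv w).measurable
  have hb : ∀ x, ‖Φ.R (Real.exp (-u)) (Φ.Sv w x)‖ ≤ Real.exp (-u) ^ (-Φ.s) :=
    fun x => Φ.norm_R_le (Real.exp_pos _) _
  have h := norm_sq_integral_le (ν := Φ.μ) (Integrable.of_bound hm.aestronglyMeasurable _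
    (Eventually.of_forall hb))
    (Integrable.of_bound (hm.norm.pow 2).aestronglyMeasurable ((Real.exp (-u) ^ (-Φ.s)) ^ 2)
      (Eventually.of_forall fun x => by
        rw [Real.norm_of_nonneg (sq_nonneg _)]
        exact pow_le_pow_left₀ (norm_nonneg _) (hb x) 2))
  simpa [A, avg] using h

include hC

omit [DecidableEq ι] in
lemma pw_mul_norm_sq_A_le (u : ℝ) (w : List ι) : Φ.pw w * ‖Φ.A u w‖ ^ 2 ≤ C := by
  refine le_trans (mul_le_mul_of_nonneg_left (Φ.norm_sq_A_le_avg u w) (Φ.pw_pos w).le) ?_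
  refine (Φ.pw_mul_avg_le ((Φ.stronglyMeasurable_R _).norm.pow 2) (fun x => sq_nonneg _)
    (c := (Real.exp (-u) ^ (-Φ.s)) ^ 2) (fun x _ => ?_) w).trans (hC _ (Real.exp_pos _))
  show ‖‖Φ.R (Real.exp (-u)) x‖ ^ 2‖ ≤ _
  rw [Real.norm_of_nonneg (sq_nonneg _)]
  exact pow_le_pow_left₀ (norm_nonneg _) (Φ.norm_R_le (Real.exp_pos _) x) 2

omit [DecidableEq ι] in
lemma norm_A_le (u : ℝ) (w : List ι) : ‖Φ.A u w‖ ≤ 1 + C / Φ.pw w := by
  have h := Φ.pw_mul_norm_sq_A_le hC u w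
  rw [mul_comm, ← le_div_iff₀ (Φ.pw_pos w)] at h
  nlinarith [sq_nonneg (‖Φ.A u w‖ - 1)]

omit [DecidableEq ι] in
lemma intervalIntegrable_A (a b : ℝ) (w : List ι) :
    IntervalIntegrable (fun u => Φ.A u w) volume a b := by
  rw [intervalIntegrable_iff]
  have hfin : IsFiniteMeasure (volume.restrict (Set.uIoc a b)) := ⟨by simp [Set.uIoc]⟩
  exact Integrable.of_bound (μ := volume.restrict (Set.uIoc a b))
    (Φ.stronglyMeasurable_A w).aestronglyMeasurable _
    (Eventually.of_forall fun u => Φ.norm_A_le hC u w)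

omit [DecidableEq ι] in
lemma norm_B_le (n : ℕ) (w : List ι) : ‖Φ.B n w‖ ≤ 1 + C / Φ.pw w := by
  have h := intervalIntegral.norm_integral_le_of_norm_le_const (a := (0:ℝ)) (b := (n:ℝ) + 1)
    (f := fun u => Φ.A u w) fun u _ => Φ.norm_A_le hC u w
  have hn : (0:ℝ) < (n:ℝ) + 1 := by positivity
  rw [sub_zero, abs_of_pos hn] at h
  rw [B, norm_smul, Real.norm_of_nonneg (inv_nonneg.2 hn.le), inv_mul_le_iff₀ hn]
  linarith

omit [DecidableEq ι] in
lemma B_split (n : ℕ) (w : List ι) : Φ.B n w = ∑ i, Φ.p i • Φ.B n (w ++ [i]) := by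
  have : (fun u => Φ.A u w) = fun u => ∑ i, Φ.p i • Φ.A u (w ++ [i]) :=
    funext fun u => Φ.A_split u w
  simp only [B, this]
  rw [intervalIntegral.integral_finsetSum (f := fun i u => Φ.p i • Φ.A u (w ++ [i]))
    fun i _ => (Φ.intervalIntegrable_A hC _ _ _).smul (Φ.p i), Finset.smul_sum]
  exact Finset.sum_congr rfl fun i _ => by rw [intervalIntegral.integral_smul, smul_comm]

omit [DecidableEq ι] in
lemma lev_A_le (u : ℝ) : ∀ m, Φ.lev m (fun w => ‖Φ.A u w‖ ^ 2) ≤ C := by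
  intro m
  refine (Φ.lev_mono m fun w => Φ.norm_sq_A_le_avg u w).trans ?_
  set F : E → ℝ := fun x => ‖Φ.R (Real.exp (-u)) x‖ ^ 2 with hF
  have hm : StronglyMeasurable F := (Φ.stronglyMeasurable_R _).norm.pow 2
  have hb : ∀ x ∈ Φ.K, ‖F x‖ ≤ (Real.exp (-u) ^ (-Φ.s)) ^ 2 := fun x _ => by
    rw [Real.norm_of_nonneg (sq_nonneg _)]
    exact pow_le_pow_left₀ (norm_nonneg _) (Φ.norm_R_le (Real.exp_pos _) x) 2
  have key : ∀ m, Φ.lev m (fun w => Φ.avg w F) = ∫ x, F x ∂Φ.μ := by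
    intro m
    induction m with
    | zero => rfl
    | succ m ih =>
      rw [lev_succ', ← ih]
      exact congrArg (Φ.lev m) (funext fun v => (Φ.avg_split hm hb v).symm)
  rw [key]
  exact hC _ (Real.exp_pos _)

omit [DecidableEq ι] in
lemma lev_B_le (n m : ℕ) : Φ.lev m (fun w => ‖Φ.B n w‖ ^ 2) ≤ C := by
  set U : ℝ := (n:ℝ) + 1 with hU
  have hn : 0 < U := by positivity
  let ν : Measure ℝ := volume.restrict (Set.Ioc 0 U)
  have hνfin : IsFiniteMeasure ν := ⟨by simp [ν]⟩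
  have hνr : ν.real univ = U := by simp [ν, Measure.real, hn.le]
  have hi : ∀ w, Integrable (fun u => Φ.A u w) ν := fun w =>
    Integrable.of_bound (Φ.stronglyMeasurable_A w).aestronglyMeasurable _
      (Eventually.of_forall fun u => Φ.norm_A_le hC u w)
  have hi2 : ∀ w, Integrable (fun u => ‖Φ.A u w‖ ^ 2) ν := fun w =>
    Integrable.of_bound ((Φ.stronglyMeasurable_A w).norm.pow 2).aestronglyMeasurable
      (C / Φ.pw w) (Eventually.of_forall fun u => by
        rw [Real.norm_of_nonneg (sq_nonneg _), le_div_iff₀' (Φ.pw_pos w)]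
        exact Φ.pw_mul_norm_sq_A_le hC u w)
  have hBw : ∀ w, ‖Φ.B n w‖ ^ 2 ≤ U⁻¹ * ∫ u, ‖Φ.A u w‖ ^ 2 ∂ν := fun w => by
    have h := norm_sq_integral_le (hi w) (hi2 w)
    rw [hνr] at h
    rw [B, intervalIntegral.integral_of_le hn.le, norm_smul, mul_pow,
      Real.norm_of_nonneg (inv_nonneg.2 hn.le)]
    refine (mul_le_mul_of_nonneg_left h (by positivity)).trans_eq ?_
    field_simp
  obtain ⟨hint, heq⟩ := Φ.lev_integrable (ν := ν) m (F := fun u w => ‖Φ.A u w‖ ^ 2) hi2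
  calc Φ.lev m (fun w => ‖Φ.B n w‖ ^ 2)
      ≤ Φ.lev m (fun w => U⁻¹ • ∫ u, ‖Φ.A u w‖ ^ 2 ∂ν) := Φ.lev_mono m hBw
    _ = U⁻¹ * ∫ u, Φ.lev m (fun w => ‖Φ.A u w‖ ^ 2) ∂ν := by rw [lev_smul, heq]; rfl
    _ ≤ U⁻¹ * ∫ _u, C ∂ν := mul_le_mul_of_nonneg_left
        (integral_mono hint (integrable_const C) fun u => Φ.lev_A_le hC u m) (by positivity)
    _ = C := by rw [integral_const, hνr, smul_eq_mul, inv_mul_cancel_left₀ hn.ne']

variable {δ : ℝ} (hδ : 0 < δ)
  (hsep : ∀ i j, i ≠ j → ∀ x ∈ Φ.K, ∀ y ∈ Φ.K, δ ≤ ‖Φ.S i x - Φ.S j y‖)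

include hδ hsep

omit hC in
lemma A_cons {u : ℝ} (hu : Real.exp (-u) < δ) (i : ι) (w : List ι) :
    Φ.A u (i :: w) = Φ.avg w (Φ.g i) + Φ.O i (Φ.A (u + Real.log (Φ.r i)) w) := by
  have hg : Integrable (fun x => Φ.g i (Φ.Sv w x)) Φ.μ :=
    Φ.integrable_of_bound ((Φ.stronglyMeasurable_g i).comp_measurable
      (Φ.continuous_Sv w).measurable).aestronglyMeasurable
      fun x hx => Φ.norm_g_le hδ hsep i (Φ.Sv_mem w hx)
  have hR : Integrable (fun x => Φ.R (Real.exp (-u) / Φ.r i) (Φ.Sv w x)) Φ.μ :=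
    Φ.integrable_of_bound ((Φ.stronglyMeasurable_R _).comp_measurable
      (Φ.continuous_Sv w).measurable).aestronglyMeasurable
      fun x _ => Φ.norm_R_le (div_pos (Real.exp_pos _) (Φ.r_pos i)) _
  have he : Real.exp (-(u + Real.log (Φ.r i))) = Real.exp (-u) / Φ.r i := by
    rw [neg_add, ← sub_eq_add_neg, Real.exp_sub, Real.exp_log (Φ.r_pos i)]
  let L : E →L[ℝ] E := (Φ.O i).toLinearIsometry.toContinuousLinearMap
  calc Φ.A u (i :: w)
      = ∫ x, (Φ.g i (Φ.Sv w x) + L (Φ.R (Real.exp (-u) / Φ.r i) (Φ.Sv w x))) ∂Φ.μ :=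
        integral_congr_ae (Φ.ae_mem.mono fun x hx =>
          Φ.R_recursion hsep (Real.exp_pos _) hu i (Φ.Sv_mem w hx))
    _ = _ := by
        rw [integral_add hg (L.integrable_comp hR), L.integral_comp_comm hR]
        simp only [A, avg, he]
        rfl

lemma B_cons_tendsto (i : ι) (w : List ι) :
    Tendsto (fun n => Φ.B n (i :: w) - Φ.avg w (Φ.g i) - Φ.O i (Φ.B n w)) atTop (𝓝 0) := by
  set l := Real.log (Φ.r i) with hl
  obtain ⟨u0, hu0, hu0δ⟩ : ∃ u0 : ℝ, 0 ≤ u0 ∧ ∀ u, u0 < u → Real.exp (-u) < δ := by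
    refine ⟨max 0 (-Real.log δ), le_max_left _ _, fun u hu => ?_⟩
    rw [← Real.exp_log hδ]
    exact Real.exp_lt_exp.2 (by linarith [le_max_right 0 (-Real.log δ)])
  set M₁ := 1 + C / Φ.pw (i :: w) + ‖Φ.avg w (Φ.g i)‖ + (1 + C / Φ.pw w) with hM₁
  set M₂ := 1 + C / Φ.pw w with hM₂
  refine squeeze_zero_norm (a := fun n : ℕ => ((n:ℝ) + 1)⁻¹ * (M₁ * u0 + M₂ * |l| + M₂ * |l|))
    (fun n => ?_) ?_
  swap
  · have h : Tendsto (fun n : ℕ => ((n:ℝ) + 1)⁻¹) atTop (𝓝 0) :=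
      tendsto_one_div_add_atTop_nhds_zero_nat.congr fun n => one_div _
    simpa using h.mul_const (M₁ * u0 + M₂ * |l| + M₂ * |l|)
  set U : ℝ := (n:ℝ) + 1 with hU
  have hn : 0 < U := by positivity
  let L : E →L[ℝ] E := (Φ.O i).toLinearIsometry.toContinuousLinearMap
  have hI := fun a b v => Φ.intervalIntegrable_A hC a b v
  have hIl : ∀ a b : ℝ, IntervalIntegrable (fun u => Φ.A (u + l) w) volume a b := fun a b => by
    rw [intervalIntegrable_iff]
    have hfin : IsFiniteMeasure (volume.restrict (Set.uIoc a b)) := ⟨by simp [Set.uIoc]⟩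
    exact Integrable.of_bound (μ := volume.restrict (Set.uIoc a b))
      ((Φ.stronglyMeasurable_A w).comp_measurable (measurable_add_const l)).aestronglyMeasurable _
      (Eventually.of_forall fun u => Φ.norm_A_le hC _ w)
  let D : ℝ → E := fun u => Φ.A u (i :: w) - Φ.avg w (Φ.g i) - L (Φ.A (u + l) w)
  have hDint : ∀ a b : ℝ, IntervalIntegrable D volume a b := fun a b =>
    ((hI a b _).sub intervalIntegrable_const).sub ⟨L.integrable_comp (hIl a b).1,
      L.integrable_comp (hIl a b).2⟩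
  have hDb : ∀ u, ‖D u‖ ≤ M₁ := fun u => by
    refine (norm_sub_le _ _).trans (add_le_add ((norm_sub_le _ _).trans
      (add_le_add_left (Φ.norm_A_le hC u _) _)) ?_)
    exact ((Φ.O i).norm_map _).trans_le (Φ.norm_A_le hC _ w)
  have hD0 : ∀ u, u0 < u → D u = 0 := fun u hu => by
    simp only [D]
    rw [Φ.A_cons hδ hsep (hu0δ u hu) i w]
    exact sub_eq_zero.2 (add_sub_cancel_left _ _)
  have h1 : ‖∫ u in (0:ℝ)..U, D u‖ ≤ M₁ * u0 := by
    by_cases hUu : U ≤ u0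
    · refine (intervalIntegral.norm_integral_le_of_norm_le_const fun u _ => hDb u).trans ?_
      rw [sub_zero, abs_of_pos hn]
      exact mul_le_mul_of_nonneg_left hUu (le_trans (norm_nonneg _) (hDb 0))
    · rw [← intervalIntegral.integral_add_adjacent_intervals (hDint 0 u0) (hDint u0 U),
        show (∫ u in u0..U, D u) = 0 from ?_, add_zero]
      · refine (intervalIntegral.norm_integral_le_of_norm_le_const fun u _ => hDb u).trans ?_
        rw [sub_zero, abs_of_nonneg hu0]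
      · rw [intervalIntegral.integral_congr_ae (g := fun _ => (0:E))
          (Eventually.of_forall fun u hu => hD0 u (by
            rw [Set.uIoc_of_le (le_of_not_ge hUu)] at hu; exact hu.1))]
        simp
  have h2 : ‖(∫ u in (0:ℝ)..U, Φ.A (u + l) w) - ∫ u in (0:ℝ)..U, Φ.A u w‖ ≤
      M₂ * |l| + M₂ * |l| := by
    rw [intervalIntegral.integral_comp_add_right (fun u => Φ.A u w) l,
      intervalIntegral.integral_interval_sub_interval_comm (hI _ _ w) (hI _ _ w) (hI _ _ w)]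
    refine (norm_sub_le _ _).trans (add_le_add ?_ ?_) <;>
      refine (intervalIntegral.norm_integral_le_of_norm_le_const
        fun u _ => Φ.norm_A_le hC u w).trans_eq ?_ <;>
      congr 1 <;> simp [abs_sub_comm]
  have hsplit : Φ.B n (i :: w) - Φ.avg w (Φ.g i) - Φ.O i (Φ.B n w) =
      U⁻¹ • ((∫ u in (0:ℝ)..U, D u) +
        L ((∫ u in (0:ℝ)..U, Φ.A (u + l) w) - ∫ u in (0:ℝ)..U, Φ.A u w)) := by
    have hLI : ∀ a b, IntervalIntegrable (fun u => L (Φ.A (u + l) w)) volume a b := fun a b =>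
      ⟨L.integrable_comp (hIl a b).1, L.integrable_comp (hIl a b).2⟩
    simp only [D]
    rw [intervalIntegral.integral_sub ((hI _ _ _).sub intervalIntegrable_const) (hLI _ _),
      intervalIntegral.integral_sub (hI _ _ _) intervalIntegrable_const,
      L.intervalIntegral_comp_comm (hIl _ _), intervalIntegral.integral_const, sub_zero, map_sub]
    have e : ∀ v, L v = Φ.O i v := fun v => rfl
    simp only [B, ← hU, smul_add, smul_sub, smul_smul, inv_mul_cancel₀ hn.ne', one_smul,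
      map_smul, e]
    generalize (∫ u in (0:ℝ)..U, Φ.A (u + l) w) = I₁
    abel
  rw [hsplit, norm_smul, Real.norm_of_nonneg (inv_nonneg.2 hn.le)]
  refine mul_le_mul_of_nonneg_left ((norm_add_le _ _).trans ?_) (inv_nonneg.2 hn.le)
  rw [show ‖L ((∫ u in (0:ℝ)..U, Φ.A (u + l) w) - ∫ u in (0:ℝ)..U, Φ.A u w)‖ =
    ‖(∫ u in (0:ℝ)..U, Φ.A (u + l) w) - ∫ u in (0:ℝ)..U, Φ.A u w‖ from (Φ.O i).norm_map _]
  linarith

/-- A limiting profile of the averages over pieces. -/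
theorem exists_profile : ∃ Λ : List ι → E,
    (∀ i w, Λ (i :: w) = Φ.avg w (Φ.g i) + Φ.O i (Λ w)) ∧
    (∀ w, Λ w = ∑ i, Φ.p i • Λ (w ++ [i])) ∧
    ∀ m, Φ.lev m (fun w => ‖Λ w‖ ^ 2) ≤ C := by
  let f : Ultrafilter ℕ := Ultrafilter.of atTop
  have hf : (f : Filter ℕ) ≤ atTop := Ultrafilter.of_le _
  have hlim : ∀ w, ∃ x : E, Tendsto (fun n => Φ.B n w) f (𝓝 x) := fun w => by
    obtain ⟨x, -, hx⟩ := (isCompact_closedBall (0:E) (1 + C / Φ.pw w)).ultrafilter_le_nhds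
      (f.map fun n => Φ.B n w) (by
        rw [le_principal_iff, Ultrafilter.coe_map, Filter.mem_map]
        exact univ_mem' fun n => by simpa using Φ.norm_B_le hC n w)
    exact ⟨x, hx⟩
  choose Λ hΛ using hlim
  refine ⟨Λ, fun i w => ?_, fun w => ?_, fun m => ?_⟩
  · have h1 := ((hΛ (i :: w)).sub_const (Φ.avg w (Φ.g i))).sub
      ((Φ.O i).continuous.tendsto (Λ w) |>.comp (hΛ w))
    have h2 := tendsto_nhds_unique h1 ((Φ.B_cons_tendsto hC hδ hsep i w).mono_left hf)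
    rw [sub_eq_zero, sub_eq_iff_eq_add] at h2
    rw [h2, add_comm]
  · exact tendsto_nhds_unique (hΛ w)
      ((tendsto_finsetSum _ fun i _ => (hΛ (w ++ [i])).const_smul (Φ.p i)).congr
        fun n => (Φ.B_split hC n w).symm)
  · exact le_of_tendsto' (Φ.lev_tendsto m fun v => (hΛ v).norm.pow 2) fun n => Φ.lev_B_le hC n m

omit hδ hsep hC

end Sys

end

end Vale.Agent.P120
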