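import Mathlib

/-!
Self-similar systems with separated pieces and the truncated Riesz transforms of their measures.
-/

open MeasureTheory Filter Topology Set Metric
open scoped RealInnerProductSpace

namespace Vale.Agent.P120

noncomputable section

/-- A strongly separated self-similar system in `E`, with its self-similar measure for the weights
`r i ^ s`. -/
structure Sys (E : Type*) [NormedAddCommGroup E] [InnerProductSpace ℝ E] [MeasurableSpace E]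
    (ι : Type*) [Fintype ι] where
  s : ℝ
  r : ι → ℝ
  O : ι → E ≃ₗᵢ[ℝ] E
  b : ι → E
  K : Set E
  μ : Measure E
  s_pos : 0 < s
  r_pos : ∀ i, 0 < r i
  r_lt : ∀ i, r i < 1
  sum_rpow : ∑ i, r i ^ s = 1
  K_compact : IsCompact K
  K_nonempty : K.Nonempty
  K_eq : K = ⋃ i, (fun x => r i • O i x + b i) '' K
  K_disj : ∀ i j, i ≠ j →
    Disjoint ((fun x => r i • O i x + b i) '' K) ((fun x => r j • O j x + b j) '' K)
  prob : IsProbabilityMeasure μ
  supp : μ Kᶜ = 0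
  inv : μ = ∑ i, ENNReal.ofReal (r i ^ s) • μ.map (fun x => r i • O i x + b i)

variable {E : Type*} [NormedAddCommGroup E] [InnerProductSpace ℝ E] [MeasurableSpace E]
  {ι : Type*} [Fintype ι]

namespace Sys

variable (Φ : Sys E ι)

/-- The maps of the system. -/
def S (i : ι) (x : E) : E := Φ.r i • Φ.O i x + Φ.b i

/-- Inverse of `S i`. -/
def Sinv (i : ι) (x : E) : E := (Φ.O i).symm ((Φ.r i)⁻¹ • (x - Φ.b i))

/-- The weights. -/
def p (i : ι) : ℝ := Φ.r i ^ Φ.s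

/-- Composition along a word. -/
def Sv : List ι → E → E
  | [], x => x
  | i :: v, x => Φ.S i (Sv v x)

/-- Weight of a word. -/
def pw (v : List ι) : ℝ := (v.map Φ.p).prod

/-- The Riesz kernel. -/
def k (x : E) : E := ‖x‖ ^ (-(Φ.s + 1)) • x

lemma K_meas [BorelSpace E] : MeasurableSet Φ.K := Φ.K_compact.isClosed.measurableSet

lemma p_pos (i : ι) : 0 < Φ.p i := Real.rpow_pos_of_pos (Φ.r_pos i) _

lemma p_lt (i : ι) : Φ.p i < 1 := Real.rpow_lt_one (Φ.r_pos i).le (Φ.r_lt i) Φ.s_pos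

lemma sum_p : ∑ i, Φ.p i = 1 := Φ.sum_rpow

include Φ in
lemma exists_ne (i : ι) : ∃ j, j ≠ i := by
  by_contra h
  simp only [not_exists, not_not] at h
  have := Φ.sum_p
  rw [Finset.sum_eq_single i (fun j _ hj => absurd (h j) hj) (by simp)] at this
  exact (Φ.p_lt i).ne this

include Φ in
lemma nonempty_index : Nonempty ι := by
  by_contra h
  rw [not_nonempty_iff] at h
  simpa using Φ.sum_p

lemma S_sub (i : ι) (x y : E) : Φ.S i x - Φ.S i y = Φ.r i • Φ.O i (x - y) := by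
  simp [S, smul_sub]

lemma norm_S_sub (i : ι) (x y : E) : ‖Φ.S i x - Φ.S i y‖ = Φ.r i * ‖x - y‖ := by
  rw [S_sub, norm_smul, LinearIsometryEquiv.norm_map, Real.norm_of_nonneg (Φ.r_pos i).le]

lemma Sinv_S (i : ι) (x : E) : Φ.Sinv i (Φ.S i x) = x := by
  simp [Sinv, S, (Φ.r_pos i).ne']

lemma continuous_S (i : ι) : Continuous (Φ.S i) := by unfold S; fun_prop

lemma S_mem {i : ι} {x : E} (hx : x ∈ Φ.K) : Φ.S i x ∈ Φ.K := by
  rw [Φ.K_eq]; exact mem_iUnion.2 ⟨i, x, hx, rfl⟩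

lemma exists_piece {x : E} (hx : x ∈ Φ.K) : ∃ i, ∃ z ∈ Φ.K, Φ.S i z = x := by
  rw [Φ.K_eq] at hx
  obtain ⟨i, z, hz, rfl⟩ := mem_iUnion.1 hx
  exact ⟨i, z, hz, rfl⟩

lemma piece_unique {i j : ι} {x y : E} (hx : x ∈ Φ.K) (hy : y ∈ Φ.K) (h : Φ.S i x = Φ.S j y) :
    i = j := by
  by_contra hne
  exact Set.disjoint_left.1 (Φ.K_disj i j hne) ⟨x, hx, rfl⟩ ⟨y, hy, h.symm⟩

lemma continuous_Sv : ∀ v, Continuous (Φ.Sv v)
  | [] => continuous_id
  | i :: v => (Φ.continuous_S i).comp (continuous_Sv v)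

lemma Sv_mem : ∀ (v : List ι) {x : E}, x ∈ Φ.K → Φ.Sv v x ∈ Φ.K
  | [], _, hx => hx
  | _ :: v, _, hx => Φ.S_mem (Sv_mem v hx)

lemma Sv_append : ∀ (v w : List ι) (x : E), Φ.Sv (v ++ w) x = Φ.Sv v (Φ.Sv w x)
  | [], _, _ => rfl
  | i :: v, w, x => by simp [Sv, Sv_append v w x]

lemma pw_pos (v : List ι) : 0 < Φ.pw v :=
  List.prod_pos fun _ ha => by
    obtain ⟨i, -, rfl⟩ := List.mem_map.1 ha
    exact Φ.p_pos i

lemma k_smul (i : ι) (x : E) : Φ.p i • Φ.k (Φ.r i • Φ.O i x) = Φ.O i (Φ.k x) := by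
  have hr := Φ.r_pos i
  simp only [k, norm_smul, LinearIsometryEquiv.norm_map, Real.norm_of_nonneg hr.le, map_smul,
    smul_smul, Real.mul_rpow hr.le (norm_nonneg _)]
  congr 1
  have : Φ.r i ^ Φ.s * Φ.r i ^ (-(Φ.s + 1)) * Φ.r i = 1 := by
    rw [← Real.rpow_add hr, show Φ.s + -(Φ.s + 1) = -1 by ring, Real.rpow_neg_one,
      inv_mul_cancel₀ hr.ne']
  rw [show Φ.p i = Φ.r i ^ Φ.s from rfl]
  linear_combination (‖x‖ ^ (-(Φ.s + 1))) * this

lemma norm_k_le {ε : ℝ} (hε : 0 < ε) {x : E} (hx : ε ≤ ‖x‖) : ‖Φ.k x‖ ≤ ε ^ (-Φ.s) := by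
  have hx0 : 0 < ‖x‖ := hε.trans_le hx
  rw [k, norm_smul, Real.norm_of_nonneg (Real.rpow_nonneg hx0.le _), ← Real.rpow_add_one hx0.ne']
  rw [show -(Φ.s + 1) + 1 = -Φ.s by ring]
  exact Real.rpow_le_rpow_of_nonpos hε hx (by linarith [Φ.s_pos])

/-- The pieces are at positive distance and the system is bounded. -/
lemma exists_sep : ∃ δ D : ℝ, 0 < δ ∧ 0 ≤ D ∧
    (∀ i j, i ≠ j → ∀ x ∈ Φ.K, ∀ y ∈ Φ.K, δ ≤ ‖Φ.S i x - Φ.S j y‖) ∧
    ∀ x ∈ Φ.K, ∀ y ∈ Φ.K, ‖x - y‖ ≤ D := by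
  have h : ∀ᶠ δ in 𝓝[>] (0:ℝ), ∀ i j, i ≠ j → ∀ x ∈ Φ.K, ∀ y ∈ Φ.K,
      δ ≤ ‖Φ.S i x - Φ.S j y‖ := by
    refine eventually_all.2 fun i => eventually_all.2 fun j => ?_
    by_cases hij : i = j
    · exact Eventually.of_forall fun δ h => absurd hij h
    obtain ⟨q, hq, hmin⟩ := (Φ.K_compact.prod Φ.K_compact).exists_isMinOn
      (Φ.K_nonempty.prod Φ.K_nonempty)
      (f := fun q : E × E => ‖Φ.S i q.1 - Φ.S j q.2‖)
      (((Φ.continuous_S i).comp continuous_fst).sub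
        ((Φ.continuous_S j).comp continuous_snd)).norm.continuousOn
    have hpos : 0 < ‖Φ.S i q.1 - Φ.S j q.2‖ :=
      norm_pos_iff.2 (sub_ne_zero.2 fun h => hij (Φ.piece_unique hq.1 hq.2 h))
    filter_upwards [eventually_nhdsWithin_of_eventually_nhds (gt_mem_nhds hpos)] with δ hδ _ x hx y hy
    exact hδ.le.trans (hmin (mk_mem_prod hx hy))
  obtain ⟨δ, hδ, hδ0⟩ := (h.and self_mem_nhdsWithin).exists
  obtain ⟨D, hD⟩ := Metric.isBounded_iff.1 Φ.K_compact.isBounded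
  refine ⟨δ, max D 0, hδ0, le_max_right _ _, hδ, fun x hx y hy => ?_⟩
  rw [← dist_eq_norm]
  exact (hD hx hy).trans (le_max_left _ _)

/-! ### Integration -/

variable [BorelSpace E] [FiniteDimensional ℝ E]

instance : IsProbabilityMeasure Φ.μ := Φ.prob

omit [BorelSpace E] [FiniteDimensional ℝ E] in
lemma ae_mem : ∀ᵐ x ∂Φ.μ, x ∈ Φ.K := ae_iff.2 Φ.supp

lemma integrable_of_bound {F : Type*} [NormedAddCommGroup F] {f : E → F}
    (hf : AEStronglyMeasurable f Φ.μ) {c : ℝ} (hb : ∀ x ∈ Φ.K, ‖f x‖ ≤ c) : Integrable f Φ.μ :=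
  Integrable.of_bound hf c (Φ.ae_mem.mono fun _ hx => hb _ hx)

/-- Self-similarity of the integral. -/
lemma integral_inv {F : Type*} [NormedAddCommGroup F] [NormedSpace ℝ F] {f : E → F}
    (hm : StronglyMeasurable f) (hf : Integrable f Φ.μ) :
    ∫ x, f x ∂Φ.μ = ∑ i, Φ.p i • ∫ x, f (Φ.S i x) ∂Φ.μ := by
  have h : ∀ i ∈ Finset.univ,
      Integrable f (ENNReal.ofReal (Φ.r i ^ Φ.s) • Φ.μ.map (fun x => Φ.r i • Φ.O i x + Φ.b i)) := by
    intro i hi
    have := hf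
    rw [Φ.inv] at this
    exact integrable_finsetSum_measure.1 this i hi
  conv_lhs => rw [Φ.inv]
  rw [integral_finsetSum_measure h]
  refine Finset.sum_congr rfl fun i _ => ?_
  rw [integral_smul_measure, ENNReal.toReal_ofReal (Real.rpow_nonneg (Φ.r_pos i).le _),
    integral_map (f := f) (φ := fun x => Φ.r i • Φ.O i x + Φ.b i)
      (Φ.continuous_S i).aemeasurable hm.aestronglyMeasurable]
  rfl

/-- The average of `f` over the piece of a word. -/
def avg {F : Type*} [NormedAddCommGroup F] [NormedSpace ℝ F] (v : List ι) (f : E → F) : F :=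
  ∫ x, f (Φ.Sv v x) ∂Φ.μ

lemma avg_split {F : Type*} [NormedAddCommGroup F] [NormedSpace ℝ F] {f : E → F}
    (hm : StronglyMeasurable f) {c : ℝ} (hb : ∀ x ∈ Φ.K, ‖f x‖ ≤ c) (v : List ι) :
    Φ.avg v f = ∑ i, Φ.p i • Φ.avg (v ++ [i]) f := by
  have hm' : StronglyMeasurable fun x => f (Φ.Sv v x) :=
    hm.comp_measurable (Φ.continuous_Sv v).measurable
  rw [avg, Φ.integral_inv hm'
    (Φ.integrable_of_bound hm'.aestronglyMeasurable fun x hx => hb _ (Φ.Sv_mem v hx))]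
  refine Finset.sum_congr rfl fun i _ => ?_
  congr 1
  exact integral_congr_ae (Eventually.of_forall fun x => by simp [Sv_append, Sv])

lemma pw_mul_avg_le {f : E → ℝ} (hm : StronglyMeasurable f) (h0 : ∀ x, 0 ≤ f x) {c : ℝ}
    (hb : ∀ x ∈ Φ.K, ‖f x‖ ≤ c) (v : List ι) : Φ.pw v * Φ.avg v f ≤ ∫ x, f x ∂Φ.μ := by
  induction v generalizing f with
  | nil => simp [pw, avg, Sv]
  | cons i v ih =>
    have hm' : StronglyMeasurable fun x => f (Φ.S i x) :=
      hm.comp_measurable (Φ.continuous_S i).measurable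
    have h1 := ih hm' (fun x => h0 _) (fun x hx => hb _ (Φ.S_mem hx))
    have h2 : Φ.p i * ∫ x, f (Φ.S i x) ∂Φ.μ ≤ ∫ x, f x ∂Φ.μ := by
      rw [Φ.integral_inv hm (Φ.integrable_of_bound hm.aestronglyMeasurable hb)]
      exact Finset.single_le_sum (f := fun j => Φ.p j • ∫ x, f (Φ.S j x) ∂Φ.μ)
        (fun j _ => mul_nonneg (Φ.p_pos j).le (integral_nonneg fun x => h0 _)) (Finset.mem_univ i)
    simp only [pw, List.map_cons, List.prod_cons]
    refine le_trans ?_ h2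
    rw [mul_assoc]
    exact mul_le_mul_of_nonneg_left h1 (Φ.p_pos i).le

end Sys

end

end Vale.Agent.P120
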