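import Vale.Agent.P120.Solution

/-!
The Riesz transform of a strongly separated self-similar measure is unbounded in `L²`.
-/

open MeasureTheory Filter Topology Set Metric
open scoped RealInnerProductSpace

namespace Vale.Agent.P120

noncomputable section

variable {E : Type*} [NormedAddCommGroup E] [InnerProductSpace ℝ E] [MeasurableSpace E]
  [BorelSpace E] [FiniteDimensional ℝ E]
  {ι : Type*} [Fintype ι] [DecidableEq ι] (Φ : Sys E ι)

namespace Sys

omit [DecidableEq ι] in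
/-- Every open set meeting `K` has positive measure. -/
lemma measure_pos_of_open {G : Set E} (hG : IsOpen G) {y : E} (hy : y ∈ Φ.K) (hyG : y ∈ G) :
    Φ.μ G ≠ 0 := by
  obtain ⟨-, D, -, -, -, hD⟩ := Φ.exists_sep
  haveI := Φ.nonempty_index
  obtain ⟨i₀, -, hi₀⟩ := Finset.univ.exists_max_image Φ.r Finset.univ_nonempty
  obtain ⟨η, hη, hball⟩ := Metric.isOpen_iff.1 hG y hyG
  obtain ⟨n, hn⟩ := (((tendsto_pow_atTop_nhds_zero_of_lt_one (Φ.r_pos i₀).le
    (Φ.r_lt i₀)).mul_const D).eventually (gt_mem_nhds (show 0 * D < η by simpa using hη))).exists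
  have hword : ∀ n, ∀ x ∈ Φ.K, ∃ v : List ι, v.length = n ∧ ∃ z ∈ Φ.K, Φ.Sv v z = x := by
    intro n
    induction n with
    | zero => intro x hx; exact ⟨[], rfl, x, hx, rfl⟩
    | succ n ih =>
      intro x hx
      obtain ⟨i, z, hz, rfl⟩ := Φ.exists_piece hx
      obtain ⟨v, hv, z', hz', rfl⟩ := ih z hz
      exact ⟨i :: v, by simp [hv], z', hz', rfl⟩
  obtain ⟨v, hv, z, hz, rfl⟩ := hword n y hy
  intro h0
  have h := Φ.pw_mul_avg_le (f := G.indicator fun _ => (1:ℝ))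
    (stronglyMeasurable_const.indicator hG.measurableSet)
    (fun x => Set.indicator_nonneg (fun _ _ => zero_le_one) x) (c := 1)
    (fun x _ => (norm_indicator_le_norm_self _ x).trans_eq (by simp)) v
  rw [integral_indicator_const _ hG.measurableSet, Measure.real, h0] at h
  have h1 : Φ.avg v (G.indicator fun _ => (1:ℝ)) = 1 := by
    rw [avg, integral_congr_ae (g := fun _ => (1:ℝ)) (Φ.ae_mem.mono fun x hx => ?_)]
    · simp
    refine indicator_of_mem (hball ?_) _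
    rw [mem_ball, dist_eq_norm]
    refine lt_of_le_of_lt ((Φ.norm_Sv_sub_le (fun i => hi₀ i (Finset.mem_univ i)) v x z).trans ?_) hn
    rw [hv]
    exact mul_le_mul_of_nonneg_left (hD x hx z hz) (pow_nonneg (Φ.r_pos i₀).le _)
  rw [h1] at h
  simp at h
  exact absurd h (not_le.2 (Φ.pw_pos v))

/-- **Unboundedness of the Riesz transform.** -/
theorem not_bounded : ¬ ∃ C : ℝ, ∀ ε, 0 < ε → ∫ x, ‖Φ.R ε x‖ ^ 2 ∂Φ.μ ≤ C := by
  rintro ⟨C, hC⟩
  obtain ⟨δ, D, hδ, -, hsep, hD⟩ := Φ.exists_sep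
  obtain ⟨Λ, heq, hsplit, henergy⟩ := Φ.exists_profile hC hδ hsep
  obtain ⟨h, hcont, hh⟩ := Φ.exists_solution hδ hsep heq hsplit henergy
  let V : Submodule ℝ E := Submodule.span ℝ {v | ∃ x ∈ Φ.K, ∃ y ∈ Φ.K, v = x - y}
  have hOV : ∀ i, V.map (Φ.O i).toLinearEquiv.toLinearMap = V := fun i => by
    refine Submodule.eq_of_le_of_finrank_eq ?_ (LinearEquiv.finrank_map_eq _ V)
    rw [Submodule.map_le_iff_le_comap, Submodule.span_le]
    rintro _ ⟨x, hx, y, hy, rfl⟩
    simp only [SetLike.mem_coe, Submodule.mem_comap]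
    have : Φ.O i (x - y) = (Φ.r i)⁻¹ • (Φ.S i x - Φ.S i y) := by
      rw [S_sub, inv_smul_smul₀ (Φ.r_pos i).ne']
    show Φ.O i (x - y) ∈ V
    rw [this]
    exact V.smul_mem _ (Submodule.subset_span ⟨_, Φ.S_mem hx, _, Φ.S_mem hy, rfl⟩)
  let P : Set (E × E) := {q | q.1 ∈ Φ.K ∧ ‖q.2‖ = 1 ∧ q.2 ∈ V ∧
    ∀ y ∈ Φ.K, ⟪q.2, y⟫ ≤ ⟪q.2, q.1⟫}
  have hPc : IsCompact P := by
    refine (Φ.K_compact.prod (isCompact_sphere (0:E) 1)).of_isClosed_subset ?_
      fun q hq => ⟨hq.1, by simpa using hq.2.1⟩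
    simp only [P, Set.ofPred_and, Set.ofPred_forall]
    refine (Φ.K_compact.isClosed.preimage continuous_fst).inter
      ((isClosed_eq (by fun_prop) continuous_const).inter
        ((V.closed_of_finiteDimensional.preimage continuous_snd).inter ?_))
    exact isClosed_iInter fun y => isClosed_iInter fun _ =>
      isClosed_le (by fun_prop) (by fun_prop)
  have hPn : P.Nonempty := by
    obtain ⟨x, hx⟩ := Φ.K_nonempty
    haveI := Φ.nonempty_index
    obtain ⟨j, hj⟩ := Φ.exists_ne (Classical.arbitrary ι)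
    set i := Classical.arbitrary ι
    have hne : Φ.S i x - Φ.S j x ≠ 0 :=
      sub_ne_zero.2 fun e => hj (Φ.piece_unique hx hx e).symm
    set e := ‖Φ.S i x - Φ.S j x‖⁻¹ • (Φ.S i x - Φ.S j x)
    obtain ⟨z, hz, hmax⟩ := Φ.K_compact.exists_isMaxOn Φ.K_nonempty
      (f := fun y => ⟪e, y⟫) (by fun_prop)
    exact ⟨(z, e), hz, norm_smul_inv_norm (𝕜 := ℝ) hne,
      V.smul_mem _ (Submodule.subset_span ⟨_, Φ.S_mem hx, _, Φ.S_mem hx, rfl⟩),
      fun y hy => hmax hy⟩
  obtain ⟨⟨z₀, e⟩, ⟨hz₀, he1, heV, hmax⟩, hmin⟩ := hPc.exists_isMinOn hPn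
    (f := fun q : E × E => ⟪q.2, h q.1⟫)
    (continuous_snd.continuousOn.inner (hcont.comp continuous_fst.continuousOn fun q hq => hq.1))
  obtain ⟨i, z, hz, rfl⟩ := Φ.exists_piece hz₀
  simp only at he1 heV hmax
  set e' := (Φ.O i).symm e with he'
  have hinner : ∀ v, ⟪e, Φ.O i v⟫ = ⟪e', v⟫ := fun v => by
    rw [← (Φ.O i).inner_map_map e' v, he', LinearIsometryEquiv.apply_symm_apply]
  have hq : (z, e') ∈ P := by
    refine ⟨hz, by simp [e', he1], ?_, fun y hy => ?_⟩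
    · have : e ∈ V.map (Φ.O i).toLinearEquiv.toLinearMap := by rw [hOV]; exact heV
      obtain ⟨a, ha, rfl⟩ := Submodule.mem_map.1 this
      simpa [e'] using ha
    · have := hmax _ (Φ.S_mem (i := i) hy)
      simp only [S, inner_add_right, real_inner_smul_right, hinner] at this
      exact le_of_mul_le_mul_left (by linarith) (Φ.r_pos i)
  have hle : ⟪e, h (Φ.S i z)⟫ ≤ ⟪e', h z⟫ := hmin hq
  rw [hh i z hz, inner_add_right, hinner] at hle
  suffices 0 < ⟪e, Φ.g i z⟫ by linarith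
  rw [g, inner_sum]
  obtain ⟨j, hj⟩ := Φ.exists_ne i
  have hint : ∀ j, j ≠ i → Integrable (fun y => Φ.k (Φ.S i z - Φ.S j y)) Φ.μ :=
    fun j hj => Φ.integrable_of_bound
      ((Φ.measurable_k.comp (continuous_const.sub (Φ.continuous_S j)).measurable)
        |>.stronglyMeasurable.aestronglyMeasurable)
      fun y hy => Φ.norm_k_le hδ (hsep i j hj.symm z hz y hy)
  have hnn : ∀ l, l ≠ i → ∀ᵐ y ∂Φ.μ, 0 ≤ ⟪e, Φ.k (Φ.S i z - Φ.S l y)⟫ := fun l _ =>
    Φ.ae_mem.mono fun y hy => by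
      rw [k, real_inner_smul_right, inner_sub_right]
      exact mul_nonneg (Real.rpow_nonneg (norm_nonneg _) _)
        (sub_nonneg.2 (hmax _ (Φ.S_mem hy)))
  have hterm : ∀ l ∈ Finset.univ.erase i,
      0 ≤ ⟪e, Φ.p l • ∫ y, Φ.k (Φ.S i z - Φ.S l y) ∂Φ.μ⟫ := fun l hl => by
    rw [real_inner_smul_right, ← integral_inner (hint l (Finset.ne_of_mem_erase hl)) e]
    exact mul_nonneg (Φ.p_pos l).le (integral_nonneg_of_ae (hnn l (Finset.ne_of_mem_erase hl)))
  refine Finset.sum_pos' hterm ⟨j, Finset.mem_erase.2 ⟨hj, Finset.mem_univ j⟩, ?_⟩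
  rw [real_inner_smul_right, ← integral_inner (hint j hj) e]
  refine mul_pos (Φ.p_pos j) (lt_of_le_of_ne (integral_nonneg_of_ae (hnn j hj)) fun h0 => ?_)
  have hae := (integral_eq_zero_iff_of_nonneg_ae (hnn j hj) ((hint j hj).const_inner e)).1 h0.symm
  have hall : ∀ y ∈ Φ.K, ⟪e, Φ.S i z - Φ.S j y⟫ = 0 := by
    intro y hy
    by_contra hne
    refine Φ.measure_pos_of_open (G := {y | ⟪e, Φ.S i z - Φ.S j y⟫ ≠ 0}) ?_ hy hne ?_
    · exact isOpen_ne_fun (continuous_const.inner (continuous_const.sub (Φ.continuous_S j)))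
        continuous_const
    rw [measure_eq_zero_iff_ae_notMem]
    filter_upwards [hae, Φ.ae_mem] with x hx hxK
    simp only [Pi.zero_apply, k, real_inner_smul_right, mul_eq_zero] at hx
    rcases hx with hx | hx
    · have hpos : 0 < ‖Φ.S i z - Φ.S j x‖ := hδ.trans_le (hsep i j hj.symm z hz x hxK)
      exact absurd hx (Real.rpow_pos_of_pos hpos _).ne'
    · simpa using hx
  have horth : V.map (Φ.O j).toLinearEquiv.toLinearMap ≤ (Submodule.span ℝ {e})ᗮ := by
    rw [Submodule.map_le_iff_le_comap, Submodule.span_le]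
    rintro _ ⟨x, hx, y, hy, rfl⟩
    simp only [SetLike.mem_coe, Submodule.mem_comap]
    show Φ.O j (x - y) ∈ _
    rw [Submodule.mem_orthogonal_singleton_iff_inner_right]
    have h3 : ⟪e, Φ.S j x - Φ.S j y⟫ = 0 := by
      rw [show Φ.S j x - Φ.S j y = (Φ.S i z - Φ.S j y) - (Φ.S i z - Φ.S j x) by abel,
        inner_sub_right, hall x hx, hall y hy, sub_zero]
    rw [S_sub, real_inner_smul_right, mul_eq_zero] at h3
    exact h3.resolve_left (Φ.r_pos j).ne'
  have : ⟪e, e⟫ = 0 :=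
    Submodule.mem_orthogonal_singleton_iff_inner_right.1 (horth (by rw [hOV]; exact heV))
  rw [inner_self_eq_zero.1 this, norm_zero] at he1
  exact zero_ne_one he1

end Sys

end

end Vale.Agent.P120
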