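import Vale.Agent.P120.Average

/-!
A profile with bounded energy comes from a continuous solution of the cohomological equation.
-/

open MeasureTheory Filter Topology Set Metric
open scoped RealInnerProductSpace

namespace Vale.Agent.P120

noncomputable section

variable {E : Type*} [NormedAddCommGroup E] [InnerProductSpace ℝ E] [MeasurableSpace E]
  [BorelSpace E] [FiniteDimensional ℝ E]
  {ι : Type*} [Fintype ι] [DecidableEq ι] (Φ : Sys E ι)

namespace Sys

omit [DecidableEq ι] [BorelSpace E] [FiniteDimensional ℝ E] in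
lemma lev_sum {V : Type*} [AddCommMonoid V] [Module ℝ V] (G : ι → List ι → V) :
    ∀ m, Φ.lev m (fun v => ∑ i, Φ.p i • G i v) = ∑ i, Φ.p i • Φ.lev m (G i) := by
  intro m
  induction m generalizing G with
  | zero => rfl
  | succ m ih =>
    simp only [lev, ih, Finset.smul_sum]
    rw [Finset.sum_comm]
    exact Finset.sum_congr rfl fun i _ => Finset.sum_congr rfl fun j _ => smul_comm _ _ _

omit [DecidableEq ι] [BorelSpace E] [FiniteDimensional ℝ E] in
lemma pw_mul_lev_le {F : List ι → ℝ} (hF : ∀ v, 0 ≤ F v) : ∀ (w : List ι) (m : ℕ),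
    Φ.pw w * Φ.lev m (fun v => F (v ++ w)) ≤ Φ.lev (m + w.length) F
  | [], m => by simp [pw]
  | i :: w, m => by
    have h : Φ.p i * Φ.lev m (fun v => F (v ++ i :: w)) ≤ Φ.lev (m+1) (fun v => F (v ++ w)) := by
      rw [lev_succ', ← smul_eq_mul, ← lev_smul]
      refine Φ.lev_mono m fun v => ?_
      refine le_trans (le_of_eq ?_) (Finset.single_le_sum (f := fun j => Φ.p j • F ((v ++ [j]) ++ w))
        (fun j _ => mul_nonneg (Φ.p_pos j).le (hF _)) (Finset.mem_univ i))
      simp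
    have h2 := pw_mul_lev_le hF w (m+1)
    simp only [pw, List.map_cons, List.prod_cons, List.length_cons] at h2 ⊢
    rw [show m + (w.length + 1) = m + 1 + w.length by omega]
    nlinarith [mul_le_mul_of_nonneg_left h (Φ.pw_pos w).le, show Φ.pw w = (w.map Φ.p).prod from rfl]

variable {Λ : List ι → E} {C : ℝ}
  (hsplit : ∀ w, Λ w = ∑ i, Φ.p i • Λ (w ++ [i]))
  (henergy : ∀ m, Φ.lev m (fun w => ‖Λ w‖ ^ 2) ≤ C)

include hsplit henergy

omit [DecidableEq ι] [BorelSpace E] [FiniteDimensional ℝ E] in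
/-- The mean oscillation over `w` at depth `m` tends to zero. -/
lemma osc_tendsto (w : List ι) :
    Tendsto (fun m => Φ.lev m (fun v => ‖Λ (v ++ w) - Λ v‖)) atTop (𝓝 0) := by
  let En : ℕ → ℝ := fun m => Φ.lev m (fun v => ‖Λ v‖ ^ 2)
  let inc : List ι → ℝ := fun v => ∑ j, Φ.p j * ‖Λ (v ++ [j]) - Λ v‖ ^ 2
  have hinc : ∀ v, inc v + ‖Λ v‖ ^ 2 = ∑ j, Φ.p j * ‖Λ (v ++ [j])‖ ^ 2 := fun v => by
    have h1 : ∑ j, Φ.p j * ⟪Λ (v ++ [j]), Λ v⟫ = ‖Λ v‖ ^ 2 := by
      rw [← real_inner_self_eq_norm_sq]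
      conv_rhs => rw [hsplit v, sum_inner]
      exact Finset.sum_congr rfl fun j _ => by rw [real_inner_smul_left, ← hsplit v]
    have h2 : inc v = ∑ j, (Φ.p j * ‖Λ (v ++ [j])‖ ^ 2 - 2 * (Φ.p j * ⟪Λ (v ++ [j]), Λ v⟫) +
        Φ.p j * ‖Λ v‖ ^ 2) :=
      Finset.sum_congr rfl fun j _ => by rw [norm_sub_sq_real]; ring
    rw [h2, Finset.sum_add_distrib, Finset.sum_sub_distrib, ← Finset.mul_sum, ← Finset.sum_mul,
      h1, Φ.sum_p]
    ring
  have hdiff : ∀ m, Φ.lev m inc = En (m+1) - En m := fun m => by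
    have h := Φ.lev_add m inc (fun v => ‖Λ v‖ ^ 2)
    simp only [hinc] at h
    simp only [En]
    rw [lev_succ']
    simp only [smul_eq_mul]
    linarith
  have hmono : Monotone En := monotone_nat_of_le_succ fun m => by
    have := Φ.lev_mono m (F := fun _ => (0:ℝ)) (G := inc)
      fun v => Finset.sum_nonneg fun j _ => mul_nonneg (Φ.p_pos j).le (sq_nonneg _)
    rw [Φ.lev_const, hdiff] at this
    linarith
  have hlim := tendsto_atTop_ciSup hmono ⟨C, by rintro _ ⟨m, rfl⟩; exact henergy m⟩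
  have h0 : Tendsto (fun m => En (m+1) - En m) atTop (𝓝 0) := by
    simpa using (hlim.comp (tendsto_add_atTop_nat 1)).sub hlim
  let inc1 : List ι → ℝ := fun v => ∑ j, Φ.p j * ‖Λ (v ++ [j]) - Λ v‖
  have hinc0 : ∀ v, 0 ≤ inc1 v := fun v =>
    Finset.sum_nonneg fun j _ => mul_nonneg (Φ.p_pos j).le (norm_nonneg _)
  have hJ : Tendsto (fun m => Φ.lev m inc1) atTop (𝓝 0) := by
    refine tendsto_order.2 ⟨fun a ha => Eventually.of_forall fun m => ha.trans_le ?_, fun η hη => ?_⟩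
    · have := Φ.lev_mono m hinc0
      rwa [Φ.lev_const] at this
    · set t := η⁻¹ with ht
      have ht0 : 0 < t := inv_pos.2 hη
      filter_upwards [(h0.const_mul t).eventually (gt_mem_nhds (show t * 0 < η / 2 by linarith))]
        with m hm
      have hb : ∀ v, inc1 v ≤ t • inc v + η / 4 := fun v => by
        have : ∀ j, Φ.p j * ‖Λ (v ++ [j]) - Λ v‖ ≤
            t * (Φ.p j * ‖Λ (v ++ [j]) - Λ v‖ ^ 2) + Φ.p j * (η / 4) := fun j => by
          have hx : ‖Λ (v ++ [j]) - Λ v‖ ≤ t * ‖Λ (v ++ [j]) - Λ v‖ ^ 2 + η / 4 := by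
            rw [ht, inv_mul_eq_div, div_add' _ _ _ hη.ne', le_div_iff₀ hη]
            nlinarith [sq_nonneg (‖Λ (v ++ [j]) - Λ v‖ - η / 2)]
          calc _ ≤ Φ.p j * (t * ‖Λ (v ++ [j]) - Λ v‖ ^ 2 + η / 4) :=
                mul_le_mul_of_nonneg_left hx (Φ.p_pos j).le
            _ = _ := by ring
        refine (Finset.sum_le_sum fun j _ => this j).trans_eq ?_
        rw [Finset.sum_add_distrib, ← Finset.mul_sum, ← Finset.sum_mul, Φ.sum_p, one_mul]
        rfl
      refine lt_of_le_of_lt (Φ.lev_mono m hb) ?_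
      rw [lev_add, lev_smul, Φ.lev_const, hdiff, smul_eq_mul]
      linarith
  induction w using List.reverseRecOn with
  | nil => simpa [Φ.lev_const] using tendsto_const_nhds
  | append_singleton w i ih =>
    have hc : 0 < Φ.pw w * Φ.p i := mul_pos (Φ.pw_pos w) (Φ.p_pos i)
    refine squeeze_zero (fun m => ?_) (fun m => ?_)
      (g := fun m => Φ.lev m (fun v => ‖Λ (v ++ w) - Λ v‖) +
        (Φ.pw w * Φ.p i)⁻¹ * Φ.lev (m + w.length) inc1) ?_
    · have := Φ.lev_mono m (F := fun _ => (0:ℝ)) fun v => norm_nonneg (Λ (v ++ (w ++ [i])) - Λ v)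
      rwa [Φ.lev_const] at this
    · refine (Φ.lev_mono m fun v =>
        (norm_sub_le_norm_sub_add_norm_sub (Λ (v ++ (w ++ [i]))) (Λ (v ++ w)) (Λ v)).trans_eq
          (add_comm _ _)).trans ?_
      rw [lev_add]
      refine add_le_add le_rfl ?_
      rw [← div_le_iff₀' (inv_pos.2 hc), div_inv_eq_mul]
      refine le_trans ?_ (Φ.pw_mul_lev_le hinc0 w m)
      rw [mul_comm, mul_assoc, ← smul_eq_mul (Φ.p i), ← lev_smul]
      refine mul_le_mul_of_nonneg_left (Φ.lev_mono m fun v => ?_) (Φ.pw_pos w).le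
      rw [smul_eq_mul, ← List.append_assoc]
      exact Finset.single_le_sum (f := fun j => Φ.p j * ‖Λ (v ++ w ++ [j]) - Λ (v ++ w)‖)
        (fun j _ => mul_nonneg (Φ.p_pos j).le (norm_nonneg _)) (Finset.mem_univ i)
    · simpa using ih.add ((hJ.comp (tendsto_add_atTop_nat w.length)).const_mul (Φ.pw w * Φ.p i)⁻¹)

omit hsplit henergy

end Sys

end

end Vale.Agent.P120
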