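import Vale.Agent.P120.Basic

/-!
The recursion of truncated Riesz transforms over a self-similar system.
-/

open MeasureTheory Filter Topology Set Metric
open scoped RealInnerProductSpace

namespace Vale.Agent.P120

noncomputable section

variable {E : Type*} [NormedAddCommGroup E] [InnerProductSpace ℝ E] [MeasurableSpace E]
  [BorelSpace E] [FiniteDimensional ℝ E]
  {ι : Type*} [Fintype ι] [DecidableEq ι] (Φ : Sys E ι)

namespace Sys

/-- The truncated kernel. -/
def tk (ε : ℝ) (x y : E) : E := if ε < ‖x - y‖ then Φ.k (x - y) else 0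

/-- The truncated Riesz transform of `1`. -/
def R (ε : ℝ) (x : E) : E := ∫ y, Φ.tk ε x y ∂Φ.μ

/-- Contribution to `R` at `S i z` of the other pieces. -/
def g (i : ι) (z : E) : E :=
  ∑ j ∈ Finset.univ.erase i, Φ.p j • ∫ y, Φ.k (Φ.S i z - Φ.S j y) ∂Φ.μ

omit [DecidableEq ι] [FiniteDimensional ℝ E] in
lemma measurable_k : Measurable Φ.k := by
  unfold k
  exact (measurable_norm.pow_const _).smul measurable_id

omit [DecidableEq ι] in
lemma stronglyMeasurable_tk3 :
    StronglyMeasurable fun q : (ℝ × E) × E => Φ.tk q.1.1 q.1.2 q.2 := by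
  refine Measurable.stronglyMeasurable (Measurable.ite ?_ (Φ.measurable_k.comp ?_) measurable_const)
  · exact measurableSet_lt (by fun_prop) (by fun_prop)
  · fun_prop

omit [DecidableEq ι] in
lemma stronglyMeasurable_R2 : StronglyMeasurable fun q : ℝ × E => Φ.R q.1 q.2 :=
  Φ.stronglyMeasurable_tk3.integral_prod_right'

omit [DecidableEq ι] in
lemma stronglyMeasurable_R (ε : ℝ) : StronglyMeasurable (Φ.R ε) :=
  Φ.stronglyMeasurable_R2.comp_measurable measurable_prodMk_left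

omit [DecidableEq ι] in
lemma stronglyMeasurable_tk (ε : ℝ) (x : E) : StronglyMeasurable (Φ.tk ε x) :=
  Φ.stronglyMeasurable_tk3.comp_measurable (g := fun y : E => ((ε, x), y)) (by fun_prop)

omit [DecidableEq ι] [BorelSpace E] [FiniteDimensional ℝ E] in
lemma norm_tk_le {ε : ℝ} (hε : 0 < ε) (x y : E) : ‖Φ.tk ε x y‖ ≤ ε ^ (-Φ.s) := by
  unfold tk
  split_ifs with h
  · exact Φ.norm_k_le hε h.le
  · simpa using Real.rpow_nonneg hε.le _

omit [DecidableEq ι] [BorelSpace E] [FiniteDimensional ℝ E] in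
lemma norm_R_le {ε : ℝ} (hε : 0 < ε) (x : E) : ‖Φ.R ε x‖ ≤ ε ^ (-Φ.s) := by
  refine (norm_integral_le_of_norm_le_const (μ := Φ.μ)
    (Eventually.of_forall fun y => Φ.norm_tk_le hε x y)).trans_eq ?_
  have := Φ.prob
  simp

lemma stronglyMeasurable_g (i : ι) : StronglyMeasurable (Φ.g i) := by
  unfold g
  refine Finset.stronglyMeasurable_fun_sum _ fun j _ => StronglyMeasurable.const_smul ?_ _
  refine StronglyMeasurable.integral_prod_right' (f := fun q : E × E => Φ.k (Φ.S i q.1 - Φ.S j q.2)) ?_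
  exact (Φ.measurable_k.comp (((Φ.continuous_S i).comp continuous_fst).sub
    ((Φ.continuous_S j).comp continuous_snd)).measurable).stronglyMeasurable

variable {δ : ℝ} (hδ : 0 < δ)
  (hsep : ∀ i j, i ≠ j → ∀ x ∈ Φ.K, ∀ y ∈ Φ.K, δ ≤ ‖Φ.S i x - Φ.S j y‖)

include hδ hsep

lemma norm_g_le (i : ι) {z : E} (hz : z ∈ Φ.K) : ‖Φ.g i z‖ ≤ δ ^ (-Φ.s) := by
  unfold g
  refine (norm_sum_le _ _).trans ?_
  calc ∑ j ∈ Finset.univ.erase i, ‖Φ.p j • ∫ y, Φ.k (Φ.S i z - Φ.S j y) ∂Φ.μ‖
      ≤ ∑ j ∈ Finset.univ.erase i, Φ.p j * δ ^ (-Φ.s) := by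
        refine Finset.sum_le_sum fun j hj => ?_
        rw [norm_smul, Real.norm_of_nonneg (Φ.p_pos j).le]
        refine mul_le_mul_of_nonneg_left ?_ (Φ.p_pos j).le
        refine (norm_integral_le_of_norm_le_const (μ := Φ.μ) (Φ.ae_mem.mono fun y hy =>
          Φ.norm_k_le hδ (hsep i j (Finset.ne_of_mem_erase hj).symm z hz y hy))).trans_eq ?_
        simp
    _ ≤ ∑ j, Φ.p j * δ ^ (-Φ.s) :=
        Finset.sum_le_sum_of_subset_of_nonneg (Finset.subset_univ _)
          fun j _ _ => mul_nonneg (Φ.p_pos j).le (Real.rpow_nonneg hδ.le _)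
    _ = _ := by rw [← Finset.sum_mul, Φ.sum_p, one_mul]

omit hδ in
/-- The recursion for truncations below the separation. -/
lemma R_recursion {ε : ℝ} (hε : 0 < ε) (hεδ : ε < δ) (i : ι) {z : E} (hz : z ∈ Φ.K) :
    Φ.R ε (Φ.S i z) = Φ.g i z + Φ.O i (Φ.R (ε / Φ.r i) z) := by
  have hint : Integrable (Φ.tk ε (Φ.S i z)) Φ.μ :=
    Φ.integrable_of_bound (Φ.stronglyMeasurable_tk _ _).aestronglyMeasurable
      fun y _ => Φ.norm_tk_le hε _ y
  rw [R, Φ.integral_inv (Φ.stronglyMeasurable_tk _ _) hint,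
    ← Finset.add_sum_erase _ _ (Finset.mem_univ i), add_comm]
  unfold g R
  congr 1
  · refine Finset.sum_congr rfl fun j hj => ?_
    congr 1
    refine integral_congr_ae (Φ.ae_mem.mono fun y hy => ?_)
    simp only [tk]
    rw [if_pos (hεδ.trans_le (hsep i j (Finset.ne_of_mem_erase hj).symm z hz y hy))]
  · rw [← integral_smul]
    have h : ∀ y, Φ.p i • Φ.tk ε (Φ.S i z) (Φ.S i y) = Φ.O i (Φ.tk (ε / Φ.r i) z y) := fun y => by
      simp only [tk, norm_S_sub, div_lt_iff₀ (Φ.r_pos i), mul_comm (Φ.r i)]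
      split_ifs
      · rw [S_sub, k_smul]
      · simp
    simp only [h]
    exact (Φ.O i).toLinearIsometry.toContinuousLinearMap.integral_comp_comm
      (Φ.integrable_of_bound (Φ.stronglyMeasurable_tk _ _).aestronglyMeasurable
        fun y _ => Φ.norm_tk_le (div_pos hε (Φ.r_pos i)) _ y)

omit hδ hsep

end Sys

end

end Vale.Agent.P120
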