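import Vale.Agent.P120.Profile

/-!
Bounded energy gives a continuous solution of `h (S i z) = g i z + O i (h z)` on `K`.
-/

open MeasureTheory Filter Topology Set Metric
open scoped RealInnerProductSpace

namespace Vale.Agent.P120

noncomputable section

variable {E : Type*} [NormedAddCommGroup E] [InnerProductSpace ℝ E] [MeasurableSpace E]
  [BorelSpace E] [FiniteDimensional ℝ E]
  {ι : Type*} [Fintype ι] [DecidableEq ι] (Φ : Sys E ι)

namespace Sys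

omit [DecidableEq ι] [BorelSpace E] [FiniteDimensional ℝ E] in
lemma norm_Sv_sub_le {ρ : ℝ} (hρ : ∀ i, Φ.r i ≤ ρ) : ∀ (w : List ι) (x y : E),
    ‖Φ.Sv w x - Φ.Sv w y‖ ≤ ρ ^ w.length * ‖x - y‖
  | [], x, y => by simp [Sv]
  | i :: w, x, y => by
    simp only [Sv, norm_S_sub, List.length_cons, pow_succ']
    rw [mul_assoc]
    exact mul_le_mul (hρ i) (norm_Sv_sub_le hρ w x y) (norm_nonneg _) ((Φ.r_pos i).le.trans (hρ i))

variable {δ : ℝ} (hδ : 0 < δ)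
  (hsep : ∀ i j, i ≠ j → ∀ x ∈ Φ.K, ∀ y ∈ Φ.K, δ ≤ ‖Φ.S i x - Φ.S j y‖)

include hδ hsep

lemma exists_lipschitz_g {D : ℝ} (hD : ∀ x ∈ Φ.K, ∀ y ∈ Φ.K, ‖x - y‖ ≤ D) :
    ∃ L : ℝ, 0 ≤ L ∧ ∀ i, ∀ z ∈ Φ.K, ∀ z' ∈ Φ.K, ‖Φ.g i z - Φ.g i z'‖ ≤ L * ‖z - z'‖ := by
  obtain ⟨L, hL⟩ : ∃ L : NNReal,
      LipschitzOnWith L (fun t : ℝ => t ^ (-(Φ.s + 1))) (Set.Icc δ (δ + D)) :=
    ContDiffOn.exists_lipschitzOnWith (n := 1)
      (fun t ht => ((contDiffAt_id.rpow_const_of_ne (ne_of_gt (hδ.trans_le ht.1))).contDiffWithinAt))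
      one_ne_zero (convex_Icc _ _) isCompact_Icc
  have hk : ∀ a b : E, δ ≤ ‖a‖ → ‖a‖ ≤ δ + D → δ ≤ ‖b‖ → ‖b‖ ≤ δ + D →
      ‖Φ.k a - Φ.k b‖ ≤ (δ ^ (-(Φ.s + 1)) + L * (δ + D)) * ‖a - b‖ := by
    intro a b ha ha' hb hb'
    have e : Φ.k a - Φ.k b = ‖a‖ ^ (-(Φ.s + 1)) • (a - b) +
        (‖a‖ ^ (-(Φ.s + 1)) - ‖b‖ ^ (-(Φ.s + 1))) • b := by
      simp only [k, smul_sub, sub_smul]; abel
    rw [e, add_mul]
    refine (norm_add_le _ _).trans (add_le_add ?_ ?_)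
    · rw [norm_smul, Real.norm_of_nonneg (Real.rpow_nonneg (norm_nonneg _) _)]
      exact mul_le_mul_of_nonneg_right
        (Real.rpow_le_rpow_of_nonpos hδ ha (by linarith [Φ.s_pos])) (norm_nonneg _)
    · rw [norm_smul, mul_assoc, mul_comm (δ + D), ← mul_assoc]
      refine mul_le_mul ?_ hb' (norm_nonneg _) (by positivity)
      exact (hL.norm_sub_le ⟨ha, ha'⟩ ⟨hb, hb'⟩).trans
        (mul_le_mul_of_nonneg_left (abs_norm_sub_norm_le a b) L.2)
  have hD0 : 0 ≤ D := by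
    obtain ⟨x, hx⟩ := Φ.K_nonempty
    exact le_trans (norm_nonneg _) (hD x hx x hx)
  refine ⟨δ ^ (-(Φ.s + 1)) + L * (δ + D),
    add_nonneg (Real.rpow_nonneg hδ.le _) (by positivity), fun i z hz z' hz' => ?_⟩
  set M := δ ^ (-(Φ.s + 1)) + L * (δ + D)
  have hM : 0 ≤ M := add_nonneg (Real.rpow_nonneg hδ.le _) (by positivity)
  have hint : ∀ j, j ≠ i → ∀ x ∈ Φ.K, Integrable (fun y => Φ.k (Φ.S i x - Φ.S j y)) Φ.μ :=
    fun j hj x hx => Φ.integrable_of_bound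
      ((Φ.measurable_k.comp (continuous_const.sub (Φ.continuous_S j)).measurable)
        |>.stronglyMeasurable.aestronglyMeasurable)
      fun y hy => Φ.norm_k_le hδ (hsep i j hj.symm x hx y hy)
  rw [g, g, ← Finset.sum_sub_distrib]
  refine (norm_sum_le _ _).trans ?_
  calc ∑ j ∈ Finset.univ.erase i, ‖Φ.p j • ∫ y, Φ.k (Φ.S i z - Φ.S j y) ∂Φ.μ -
        Φ.p j • ∫ y, Φ.k (Φ.S i z' - Φ.S j y) ∂Φ.μ‖
      ≤ ∑ j ∈ Finset.univ.erase i, Φ.p j * (M * ‖z - z'‖) := by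
        refine Finset.sum_le_sum fun j hj => ?_
        have hji := Finset.ne_of_mem_erase hj
        rw [← smul_sub, ← integral_sub (hint j hji z hz) (hint j hji z' hz'), norm_smul,
          Real.norm_of_nonneg (Φ.p_pos j).le]
        refine mul_le_mul_of_nonneg_left ?_ (Φ.p_pos j).le
        refine (norm_integral_le_of_norm_le_const (μ := Φ.μ) (C := M * ‖z - z'‖)
          (Φ.ae_mem.mono fun y hy => ?_)).trans_eq ?_
        · refine (hk _ _ (hsep i j hji.symm z hz y hy) ?_ (hsep i j hji.symm z' hz' y hy) ?_).trans ?_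
          · linarith [hD _ (Φ.S_mem (i := i) hz) _ (Φ.S_mem (i := j) hy)]
          · linarith [hD _ (Φ.S_mem (i := i) hz') _ (Φ.S_mem (i := j) hy)]
          · refine mul_le_mul_of_nonneg_left ?_ hM
            rw [sub_sub_sub_cancel_right, norm_S_sub]
            exact mul_le_of_le_one_left (norm_nonneg _) (Φ.r_lt i).le
        · simp
    _ ≤ ∑ j, Φ.p j * (M * ‖z - z'‖) := Finset.sum_le_sum_of_subset_of_nonneg (Finset.subset_univ _)
        fun j _ _ => mul_nonneg (Φ.p_pos j).le (mul_nonneg hM (norm_nonneg _))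
    _ = _ := by rw [← Finset.sum_mul, Φ.sum_p, one_mul]

lemma norm_avg_g_sub_le {D L ρ : ℝ} (hD : ∀ x ∈ Φ.K, ∀ y ∈ Φ.K, ‖x - y‖ ≤ D)
    (hρ : ∀ i, Φ.r i ≤ ρ) (hL0 : 0 ≤ L)
    (hL : ∀ i, ∀ z ∈ Φ.K, ∀ z' ∈ Φ.K, ‖Φ.g i z - Φ.g i z'‖ ≤ L * ‖z - z'‖)
    (i : ι) (w u : List ι) {a : E} (ha : a ∈ Φ.K) :
    ‖Φ.avg (w ++ u) (Φ.g i) - Φ.g i (Φ.Sv w a)‖ ≤ L * (ρ ^ w.length * D) := by
  have hint : Integrable (fun x => Φ.g i (Φ.Sv (w ++ u) x)) Φ.μ :=
    Φ.integrable_of_bound ((Φ.stronglyMeasurable_g i).comp_measurable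
      (Φ.continuous_Sv _).measurable).aestronglyMeasurable
      fun x hx => Φ.norm_g_le hδ hsep i (Φ.Sv_mem _ hx)
  have : Φ.avg (w ++ u) (Φ.g i) - Φ.g i (Φ.Sv w a) =
      ∫ x, (Φ.g i (Φ.Sv (w ++ u) x) - Φ.g i (Φ.Sv w a)) ∂Φ.μ := by
    rw [integral_sub hint (integrable_const _), integral_const]
    simp [avg]
  rw [this]
  refine (norm_integral_le_of_norm_le_const (μ := Φ.μ) (C := L * (ρ ^ w.length * D))
    (Φ.ae_mem.mono fun x hx => ?_)).trans_eq ?_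
  · refine (hL i _ (Φ.Sv_mem _ hx) _ (Φ.Sv_mem _ ha)).trans (mul_le_mul_of_nonneg_left ?_ hL0)
    rw [Sv_append]
    refine (Φ.norm_Sv_sub_le hρ w _ _).trans (mul_le_mul_of_nonneg_left
      (hD _ (Φ.Sv_mem u hx) _ ha) (pow_nonneg ((Φ.r_pos i).le.trans (hρ i)) _))
  · simp

variable {Λ : List ι → E} {C : ℝ}
  (heq : ∀ i w, Λ (i :: w) = Φ.avg w (Φ.g i) + Φ.O i (Λ w))
  (hsplit : ∀ w, Λ w = ∑ i, Φ.p i • Λ (w ++ [i]))
  (henergy : ∀ m, Φ.lev m (fun w => ‖Λ w‖ ^ 2) ≤ C)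

include heq hsplit henergy

/-- The profile is geometrically close to its refinements. -/
lemma nested_bound : ∃ M ρ : ℝ, 0 ≤ M ∧ 0 ≤ ρ ∧ ρ < 1 ∧ (∀ i, Φ.r i ≤ ρ) ∧
    ∀ w u, ‖Λ w - Λ (w ++ u)‖ ≤ M * ρ ^ w.length := by
  obtain ⟨-, D, -, hD0, -, hD⟩ := Φ.exists_sep
  obtain ⟨L, hL0, hL⟩ := Φ.exists_lipschitz_g hδ hsep hD
  haveI := Φ.nonempty_index
  obtain ⟨i₀, -, hi₀⟩ := Finset.univ.exists_max_image Φ.r Finset.univ_nonempty
  set ρ := Φ.r i₀
  have hρ : ∀ i, Φ.r i ≤ ρ := fun i => hi₀ i (Finset.mem_univ i)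
  have hρ0 : 0 ≤ ρ := (Φ.r_pos i₀).le
  have hρ1 : ρ < 1 := Φ.r_lt i₀
  set c := 2 * (L * D)
  have hc : 0 ≤ c := by positivity
  refine ⟨c / (1 - ρ), ρ, div_nonneg hc (by linarith), hρ0, hρ1, hρ, fun w u => ?_⟩
  obtain ⟨a, ha⟩ := Φ.K_nonempty
  have step : ∀ w, ‖Λ w - Λ (w ++ u)‖ ≤
      (∑ i, Φ.p i * ‖Λ (i :: w) - Λ (i :: (w ++ u))‖) + c * ρ ^ w.length := by
    intro w
    have hi : ∀ i, ‖Λ w - Λ (w ++ u)‖ ≤
        ‖Λ (i :: w) - Λ (i :: (w ++ u))‖ + c * ρ ^ w.length := fun i => by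
      have e : Φ.O i (Λ w - Λ (w ++ u)) = (Λ (i :: w) - Λ (i :: (w ++ u))) -
          (Φ.avg w (Φ.g i) - Φ.avg (w ++ u) (Φ.g i)) := by
        rw [heq i w, heq i (w ++ u), map_sub]; abel
      rw [← (Φ.O i).norm_map, e]
      refine (norm_sub_le _ _).trans (add_le_add le_rfl ?_)
      have h1 := Φ.norm_avg_g_sub_le hδ hsep hD hρ hL0 hL i w [] ha
      have h2 := Φ.norm_avg_g_sub_le hδ hsep hD hρ hL0 hL i w u ha
      rw [List.append_nil] at h1
      refine (norm_sub_le_norm_sub_add_norm_sub _ (Φ.g i (Φ.Sv w a)) _).trans ?_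
      rw [norm_sub_rev (Φ.g i (Φ.Sv w a))]
      simp only [c]
      linarith
    calc ‖Λ w - Λ (w ++ u)‖ = ∑ i, Φ.p i * ‖Λ w - Λ (w ++ u)‖ := by
          rw [← Finset.sum_mul, Φ.sum_p, one_mul]
      _ ≤ ∑ i, Φ.p i * (‖Λ (i :: w) - Λ (i :: (w ++ u))‖ + c * ρ ^ w.length) :=
          Finset.sum_le_sum fun i _ => mul_le_mul_of_nonneg_left (hi i) (Φ.p_pos i).le
      _ = _ := by
          simp only [mul_add, Finset.sum_add_distrib]
          rw [← Finset.sum_mul, Φ.sum_p, one_mul]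
  have iter : ∀ m w, ‖Λ w - Λ (w ++ u)‖ ≤
      Φ.lev m (fun v => ‖Λ (v ++ w) - Λ (v ++ (w ++ u))‖) + c / (1 - ρ) * ρ ^ w.length := by
    intro m
    induction m with
    | zero =>
      intro w
      exact le_add_of_nonneg_right (mul_nonneg (div_nonneg hc (by linarith)) (pow_nonneg hρ0 _))
    | succ m ih =>
      intro w
      refine (step w).trans ?_
      have hs : ∀ i, ‖Λ (i :: w) - Λ (i :: (w ++ u))‖ ≤
          Φ.lev m (fun v => ‖Λ (v ++ i :: w) - Λ (v ++ (i :: (w ++ u)))‖) +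
            c / (1 - ρ) * ρ ^ (w.length + 1) :=
        fun i => by simpa using ih (i :: w)
      refine (add_le_add (Finset.sum_le_sum fun i _ =>
        mul_le_mul_of_nonneg_left (hs i) (Φ.p_pos i).le) le_rfl).trans_eq ?_
      simp only [mul_add, Finset.sum_add_distrib]
      rw [← Finset.sum_mul, Φ.sum_p, one_mul, add_assoc, lev_succ']
      congr 1
      · rw [lev_sum]
        refine Finset.sum_congr rfl fun i _ => ?_
        simp
      · have : (1:ℝ) - ρ ≠ 0 := by linarith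
        field_simp
        ring
  refine ge_of_tendsto (x := atTop) (f := fun m =>
    Φ.lev m (fun v => ‖Λ (v ++ w) - Λ v‖) + Φ.lev m (fun v => ‖Λ (v ++ (w ++ u)) - Λ v‖) +
      c / (1 - ρ) * ρ ^ w.length) ?_ (Eventually.of_forall fun m => (iter m w).trans ?_)
  · simpa using ((Φ.osc_tendsto hsplit henergy w).add (Φ.osc_tendsto hsplit henergy (w ++ u))).add_const
      (c / (1 - ρ) * ρ ^ w.length)
  · refine add_le_add ?_ le_rfl
    rw [← lev_add]
    refine Φ.lev_mono m fun v => ?_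
    rw [norm_sub_rev (Λ (v ++ (w ++ u))) (Λ v)]
    exact norm_sub_le_norm_sub_add_norm_sub _ _ _

/-- A continuous solution of the cohomological equation. -/
theorem exists_solution : ∃ h : E → E, ContinuousOn h Φ.K ∧
    ∀ i, ∀ z ∈ Φ.K, h (Φ.S i z) = Φ.g i z + Φ.O i (h z) := by
  classical
  obtain ⟨M, ρ, hM, hρ0, hρ1, hρ, hnest⟩ := Φ.nested_bound hδ hsep heq hsplit henergy
  obtain ⟨-, D, -, hD0, -, hD⟩ := Φ.exists_sep
  obtain ⟨L, hL0, hL⟩ := Φ.exists_lipschitz_g hδ hsep hD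
  haveI := Φ.nonempty_index
  obtain ⟨dig, hdig⟩ : ∃ dig : E → ι, ∀ x ∈ Φ.K, ∃ z ∈ Φ.K, Φ.S (dig x) z = x :=
    ⟨fun x => if hx : x ∈ Φ.K then (Φ.exists_piece hx).choose else Classical.arbitrary ι,
      fun x hx => by simp only [dif_pos hx]; exact (Φ.exists_piece hx).choose_spec⟩
  let T : E → E := fun x => Φ.Sinv (dig x) x
  have hT : ∀ x ∈ Φ.K, T x ∈ Φ.K ∧ Φ.S (dig x) (T x) = x := fun x hx => by
    obtain ⟨z, hz, e⟩ := hdig x hx
    have : T x = z :=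
      calc T x = Φ.Sinv (dig x) (Φ.S (dig x) z) := congrArg (Φ.Sinv (dig x)) e.symm
        _ = z := Φ.Sinv_S _ _
    rw [this]; exact ⟨hz, e⟩
  have hdS : ∀ i, ∀ z ∈ Φ.K, dig (Φ.S i z) = i ∧ T (Φ.S i z) = z := fun i z hz => by
    obtain ⟨z', hz', e⟩ := hdig _ (Φ.S_mem (i := i) hz)
    have : dig (Φ.S i z) = i := Φ.piece_unique hz' hz e
    exact ⟨this, by simp only [T, this]; exact Φ.Sinv_S _ z⟩
  let pre : ℕ → E → List ι := fun n => n.rec (fun _ => []) fun _ f x => dig x :: f (T x)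
  have hpre : ∀ n x, pre (n+1) x = dig x :: pre n (T x) := fun n x => rfl
  have hlen : ∀ n x, (pre n x).length = n := by
    intro n
    induction n with
    | zero => intro x; rfl
    | succ n ih => intro x; simp [hpre, ih]
  have happ : ∀ n k x, ∃ u, pre (n + k) x = pre n x ++ u := by
    intro n
    induction n with
    | zero => intro k x; exact ⟨_, (List.nil_append _).symm⟩
    | succ n ih =>
      intro k x
      obtain ⟨u, hu⟩ := ih k (T x)
      exact ⟨u, by rw [show n + 1 + k = n + k + 1 by omega, hpre, hpre, hu]; rfl⟩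
  have hmem : ∀ n, ∀ x ∈ Φ.K, ∃ y ∈ Φ.K, Φ.Sv (pre n x) y = x := by
    intro n
    induction n with
    | zero => intro x hx; exact ⟨x, hx, rfl⟩
    | succ n ih =>
      intro x hx
      obtain ⟨y, hy, e⟩ := ih (T x) (hT x hx).1
      exact ⟨y, hy, by simp only [hpre, Sv, e]; exact (hT x hx).2⟩
  have hρn : Tendsto (fun n : ℕ => ρ ^ n) atTop (𝓝 0) :=
    tendsto_pow_atTop_nhds_zero_of_lt_one hρ0 hρ1
  have hcauchy : ∀ x, CauchySeq fun n => Λ (pre n x) := fun x => by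
    refine cauchySeq_of_le_tendsto_0 (fun n => 2 * (M * ρ ^ n)) (fun n m N hn hm => ?_)
      (by simpa using (hρn.const_mul M).const_mul 2)
    obtain ⟨k, rfl⟩ := Nat.exists_eq_add_of_le hn
    obtain ⟨k', rfl⟩ := Nat.exists_eq_add_of_le hm
    obtain ⟨u, hu⟩ := happ N k x
    obtain ⟨u', hu'⟩ := happ N k' x
    rw [dist_eq_norm, hu, hu']
    refine (norm_sub_le_norm_sub_add_norm_sub _ (Λ (pre N x)) _).trans ?_
    rw [norm_sub_rev (Λ (pre N x ++ u))]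
    have h1 := hnest (pre N x) u
    have h2 := hnest (pre N x) u'
    rw [hlen] at h1 h2
    linarith
  let h : E → E := fun x => limUnder atTop fun n => Λ (pre n x)
  have hh : ∀ x, Tendsto (fun n => Λ (pre n x)) atTop (𝓝 (h x)) :=
    fun x => (hcauchy x).tendsto_limUnder
  have hclose : ∀ n x, ‖Λ (pre n x) - h x‖ ≤ M * ρ ^ n := fun n x => by
    refine le_of_tendsto ((tendsto_const_nhds.sub (hh x)).norm) ?_
    filter_upwards [eventually_ge_atTop n] with m hm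
    obtain ⟨k, rfl⟩ := Nat.exists_eq_add_of_le hm
    obtain ⟨u, hu⟩ := happ n k x
    rw [hu]
    simpa [hlen] using hnest (pre n x) u
  obtain ⟨i₁, -, hi₁⟩ := Finset.univ.exists_min_image Φ.r Finset.univ_nonempty
  set m := Φ.r i₁
  have hm0 : 0 < m := Φ.r_pos i₁
  have hsame : ∀ n, ∀ x ∈ Φ.K, ∀ y ∈ Φ.K, ‖x - y‖ < δ * m ^ n → pre n x = pre n y := by
    intro n
    induction n with
    | zero => intros; rfl
    | succ n ih =>
      intro x hx y hy hxy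
      obtain ⟨hx', ex⟩ := hT x hx
      obtain ⟨hy', ey⟩ := hT y hy
      have hd : dig x = dig y := by
        by_contra hne
        have := hsep _ _ hne _ hx' _ hy'
        rw [ex, ey] at this
        have : m ^ (n+1) ≤ 1 := pow_le_one₀ hm0.le (Φ.r_lt i₁).le
        nlinarith
      rw [hpre, hpre, hd]
      refine congrArg _ (ih _ hx' _ hy' ?_)
      have e : ‖x - y‖ = Φ.r (dig y) * ‖T x - T y‖ := by
        rw [← norm_S_sub]
        conv_lhs => rw [← ex, ← ey, hd]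
      have hmr : m ≤ Φ.r (dig y) := hi₁ _ (Finset.mem_univ _)
      have : m * ‖T x - T y‖ < m * (δ * m ^ n) := by
        rw [pow_succ] at hxy
        nlinarith [mul_le_mul_of_nonneg_right hmr (norm_nonneg (T x - T y))]
      exact lt_of_mul_lt_mul_left this hm0.le
  refine ⟨h, Metric.continuousOn_iff.2 fun x hx ε hε => ?_, fun i z hz => ?_⟩
  · obtain ⟨n, hn⟩ := (((hρn.const_mul M).const_mul 2).eventually
      (gt_mem_nhds (show 2 * (M * 0) < ε by simpa using hε))).exists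
    refine ⟨δ * m ^ n, by positivity, fun y hy hyx => ?_⟩
    rw [dist_eq_norm] at hyx ⊢
    have e := hsame n y hy x hx hyx
    have h1 := hclose n y
    have h2 := hclose n x
    rw [e, norm_sub_rev] at h1
    calc ‖h y - h x‖ ≤ ‖h y - Λ (pre n x)‖ + ‖Λ (pre n x) - h x‖ :=
          norm_sub_le_norm_sub_add_norm_sub _ _ _
      _ < ε := by linarith
  · have h1 : Tendsto (fun n => Λ (pre (n+1) (Φ.S i z))) atTop (𝓝 (h (Φ.S i z))) :=
      (hh _).comp (tendsto_add_atTop_nat 1)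
    simp only [hpre, (hdS i z hz).1, (hdS i z hz).2, heq] at h1
    refine tendsto_nhds_unique h1 (Tendsto.add ?_ (((Φ.O i).continuous.tendsto _).comp (hh z)))
    refine tendsto_iff_norm_sub_tendsto_zero.2 (squeeze_zero (fun n => norm_nonneg _) (fun n => ?_)
      (g := fun n => L * (ρ ^ n * D)) (by simpa using (hρn.mul_const D).const_mul L))
    obtain ⟨y, hy, e⟩ := hmem n z hz
    have h3 := Φ.norm_avg_g_sub_le hδ hsep hD hρ hL0 hL i (pre n z) [] hy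
    rwa [List.append_nil, hlen, e] at h3

omit hδ hsep heq hsplit henergy

end Sys

end

end Vale.Agent.P120
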